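import Vale.Agent.P088.R2.H281.A.Win
import Vale.Agent.P088.R2.H747.A.Rows

/-!
# P088, stage 3, zone A: the supports of the leaves `A1`, `A2`, `Af`

`supp_OmB`: the support of every leaf off the diagonal is in `OmB`. `rowSup_of`: with the lower
bounds of `W_x`, `W_y` where the leaves are alive (`RowWX`) one has `RowSup`.
-/

open Set Filter
open scoped ContDiff Topology

noncomputable section

namespace Vale.Agent.P088.R2.H281.A

open Vale.Agent.P088.LR Vale.Agent.P088.HY Vale.Agent.P088.R2.H475 Vale.Agent.P088.R2.H31.EP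
open Vale.Agent.P088.R2.H867.EP Vale.Agent.P088.R2.H404.INF Vale.Agent.P088.R2.H747.A

variable {n : ℕ} {q : Cst} {d : Pk n} {z : VV n}

/-! ### The set `OmB` -/

theorem fin_OmB (hq : WinC q) (h : PkOk q d) (hc : 0 < q.c₀) (hz : FinOk q d z)
    (hr : q.c₀ ^ 2 ≤ d.r2 z) : z ∈ OmB q d := by
  have hR := hq.inf.R0
  have hκ := hq.inf.κ0
  have hσ := hq.inf.σ0
  have hn := hq.nm
  have a1 := (gl_le hq.inf h).1 hz.near.g1
  have a2 := (gl_le hq.inf h).1 hz.near.g2
  have hE : 0 < q.nm * d.E q z := mul_pos (by linarith) (Real.exp_pos _)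
  refine ⟨?_, ?_, by linarith, by linarith, ?_, ?_, ?_⟩
  · nlinarith
  · have h1 := hz.near.q
    have h0 := sq0 (z.1 - z.2)
    have h2 : 0 < q.κ₁ * q.R := by positivity
    rw [Real.sqrt_le_left (by positivity)] at h1
    nlinarith
  · have h1 := hz.near.lo
    have h2 : 0 < q.R / q.σ := by positivity
    linarith
  · have := hz.ua
    linarith
  · rcases hz.N3 with h1 | h1
    · rcases h1.lt_or_eq with h2 | h2
      · exact Or.inl h2
      · refine Or.inr ?_
        have h3 : d.N q z ≤ 3 * q.nm * d.E q z := by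
          unfold Pk.N Pk.E
          exact thr_win hq h h2.ge (by linarith)
        linarith
    · exact Or.inr (by linarith)

/-- The support of a leaf off the diagonal. -/
theorem supp_OmB (n : ℕ) : EvC fun q => ∀ d : Pk n, PkOk q d → ∀ k, Off k →
    tsupport (d.ch q k) ⊆ OmB q d := by
  refine ((off_supp n).and (evWin.and EvC.pos)).mono fun q hq d h k hk z hz => ?_
  obtain ⟨h1, h2⟩ := hq.1 d h k hk z hz
  exact fin_OmB hq.2.1 h hq.2.2.1.2.2.2.2.2.1 h1 h2

/-! ### Continuity -/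

/-- The weight is smooth. -/
theorem W_sm (h : PkOk q d) (hs : LitSm q d) : ContDiff ℝ ∞ (d.W q) :=
  WT_smooth h.ok h.Θs h.ret.sm h.l_sm hs.g

theorem Wx2_cont (h : PkOk q d) (hs : LitSm q d) : Continuous (Wx2 q d) := by
  unfold Wx2
  refine continuous_finsetSum _ fun i _ => ?_
  have h1 : Continuous fun z => fderiv ℝ (d.W q) z :=
    (W_sm h hs).continuous_fderiv (by simp)
  exact (continuous_const.mul (h1.clm_apply continuous_const)).pow 2

theorem Wy2_cont (h : PkOk q d) (hs : LitSm q d) : Continuous (Wy2 q d) := by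
  unfold Wy2
  refine continuous_finsetSum _ fun i _ => ?_
  have h1 : Continuous fun z => fderiv ℝ (d.W q) z :=
    (W_sm h hs).continuous_fderiv (by simp)
  exact (continuous_const.mul (h1.clm_apply continuous_const)).pow 2

theorem rr_cont (hs : LitSm q d) : Continuous (rr d) :=
  Real.continuous_sqrt.comp (continuous_const.mul hs.rq.continuous)

theorem rr_pos (h : 0 < d.r2 z) : 0 < rr d z := Real.sqrt_pos.2 h

theorem ff_cont (hr : H509.Rad.Ok q.e₁ rp) (hs : LitSm q d) (h0 : 0 < d.r2 z) :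
    ContinuousAt (ff q d) z := by
  unfold ff lS
  refine hs.u.continuous.continuousAt.add (ContinuousAt.log ?_ ?_)
  · exact (hr.pp.contDiff_Ph.continuous.comp ((rr_cont hs).pow 2)).continuousAt
  · have := rr_pos h0
    exact (hr.pp.S_pos (by positivity)).ne'

theorem GG_cont (h : PkOk q d) (hr : H509.Rad.Ok q.e₁ rp) (hs : LitSm q d) (h0 : 0 < d.r2 z) :
    ContinuousAt (GG q d) z := by
  unfold GG D₂
  have h1 : ContinuousAt (q.D 1 0) (ff q d z, rr d z) :=
    ((h.sl.sm 1 0) _ (rr_pos h0)).continuousWithinAt.continuousAt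
      ((isOpen_lt continuous_const continuous_snd).mem_nhds (rr_pos h0))
  exact ContinuousAt.comp (f := fun z => (ff q d z, rr d z)) h1
    ((ff_cont hr hs h0).prodMk (rr_cont hs).continuousAt)

theorem GG_pos (h : PkOk q d) (h0 : 0 < d.r2 z) : 0 < GG q d z := h.sl.G_pos _ (rr_pos h0)

theorem N_cont (h : PkOk q d) (hs : LitSm q d) : Continuous (d.N q) :=
  h.Φ's.continuous.comp hs.u.continuous

theorem NG_cont (h : PkOk q d) (hr : H509.Rad.Ok q.e₁ rp) (hs : LitSm q d) (h0 : 0 < d.r2 z) :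
    ContinuousAt (H747.A.NG q d) z :=
  (N_cont h hs).continuousAt.add (GG_cont h hr hs h0)

theorem NG_pos (h : PkOk q d) (hM : 1 ≤ q.M₀) (h0 : 0 < d.r2 z) : 0 < H747.A.NG q d z :=
  add_pos (h.N_pos hM _) (GG_pos h h0)

/-! ### The row -/

/-- **Row A-WX.** The lower bounds of `W_x`, `W_y` where the leaves of zone A are alive. -/
def RowWX (n : ℕ) : Prop := EvC fun q => ∀ d : Pk n, PkOk q d →
  ∀ k ∈ ({.A1, .A2, .Af} : Set Zo), ∀ z, d.ch q k z ≠ 0 →
    (q.rT / 6 * H747.A.NG q d z) ^ 2 ≤ Wx2 q d z ∧ (q.rT / 6 * H747.A.NG q d z) ^ 2 ≤ Wy2 q d z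

theorem off_A {k : Zo} (hk : k ∈ ({.A1, .A2, .Af} : Set Zo)) : Off k := by
  unfold Off
  rcases hk with rfl | rfl | rfl <;> simp

/-- An inequality between functions continuous at `z` holds at the points of the closure. -/
theorem le_closure {E : Type*} [TopologicalSpace E] {S : Set E} {f g : E → ℝ} {z : E}
    (hz : z ∈ closure S) (hf : ContinuousAt f z) (hg : ContinuousAt g z)
    (h : ∀ w ∈ S, f w ≤ g w) : f z ≤ g z := by
  have : (𝓝[S] z).NeBot := mem_closure_iff_nhdsWithin_neBot.1 hz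
  exact le_of_tendsto_of_tendsto (hf.mono_left nhdsWithin_le_nhds)
    (hg.mono_left nhdsWithin_le_nhds) (eventually_nhdsWithin_of_forall h)

/-- **Row A-SUP**, from A-WX. -/
theorem rowSup_of (H : RowWX n) : RowSup n := by
  intro k hk
  refine ((H.and (supp_OmB n)).and ((EvC.litSm n).and (EvC.rad.and EvC.pos))).mono ?_
  rintro q ⟨⟨H, hB⟩, hs, hr, p⟩ d h
  have hs := hs d h
  have hM : 1 ≤ q.M₀ := p.2.2.1
  have hc : 0 < q.c₀ := p.1.2.2.2.2.2.1
  have hT : 0 < q.rT := p.1.2.2.2.2.2.2.2.1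
  refine ⟨contDiffOn_univ.2 (hs.ch k), fun z hz => ?_⟩
  have hz1 := hB d h k (off_A hk) hz
  have h0 : 0 < d.r2 z := lt_trans (by positivity) hz1.1
  have hN := NG_pos h hM h0
  have h3 : 0 < q.rT * H747.A.NG q d z := mul_pos hT hN
  have h4 : (q.rT / 8 * H747.A.NG q d z) ^ 2 < (q.rT / 6 * H747.A.NG q d z) ^ 2 := by
    nlinarith [mul_pos h3 h3]
  have hc1 : ContinuousAt (fun w => (q.rT / 6 * H747.A.NG q d w) ^ 2) z :=
    (continuousAt_const.mul (NG_cont h hr hs h0)).pow 2
  refine ⟨hz1, h4.trans_le ?_, h4.trans_le ?_⟩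
  · exact le_closure (f := fun w => (q.rT / 6 * H747.A.NG q d w) ^ 2) hz hc1
      (Wx2_cont h hs).continuousAt fun w hw => (H d h k hk w hw).1
  · exact le_closure (f := fun w => (q.rT / 6 * H747.A.NG q d w) ^ 2) hz hc1
      (Wy2_cont h hs).continuousAt fun w hw => (H d h k hk w hw).2

end Vale.Agent.P088.R2.H281.A
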