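import Vale.Agent.P088.R2.H404.INF.Alv
import Vale.Agent.P088.R2.H509.EP.Lit2

/-!
# P088, stage 3: the window at the top and the supports of the finite leaves

`Φ' > 4 nm e^u` for `uta - R / 50 ≤ u ≤ utb` (`top_win`), `Φ' ≤ 3 nm e^u` on `[uth, uth + 1]`.
`fin_supp`: on the support of every leaf which is neither `RS` nor at infinity:
`NearOk`, `u ≤ uta - R / 50`, `u ≤ uth ∨ N ≤ 3 nm E`; `off_supp`: `c₀² ≤ r²`.
-/

open Set Filter
open scoped ContDiff Topology

noncomputable section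

namespace Vale.Agent.P088.R2.H281.A

open Vale.Agent.P088.LR Vale.Agent.P088.HY Vale.Agent.P088.R2.H475 Vale.Agent.P088.R2.H31.EP
open Vale.Agent.P088.R2.H867.EP Vale.Agent.P088.R2.H404.INF

variable {n : ℕ} {q : Cst} {d : Pk n} {z : VV n}

/-- The conditions on the constants. -/
structure WinC (q : Cst) : Prop where
  inf : InfC q
  M1 : 1 ≤ q.M₀
  nm : 1 ≤ q.nm
  CT : 0 < q.ph.CT
  Cb : 0 < q.ph.Cb
  L : 2 ≤ q.L
  R1 : 100 ≤ q.R
  E2 : 4 * q.nm < Real.exp (3 / 50 * q.R)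
  E3 : Real.exp 2 * ((1 + q.ph.CT) * (q.ph.Cb * q.M₀)) ≤ 3 * q.nm * Real.exp (11 / 5 * q.R)

theorem ev_exp {c : ℝ} (hc : 0 < c) (a : ℝ) : ∀ᶠ t : ℝ in atTop, a < Real.exp (c * t) :=
  (Real.tendsto_exp_atTop.comp (tendsto_id.const_mul_atTop hc)).eventually_gt_atTop a

theorem evWin : EvC WinC := by
  have h1 : EvC fun q => 100 ≤ q.R ∧ 4 * q.nm < Real.exp (3 / 50 * q.R) ∧ (1 ≤ q.nm →
      Real.exp 2 * ((1 + q.ph.CT) * (q.ph.Cb * q.M₀)) ≤ 3 * q.nm * Real.exp (11 / 5 * q.R)) := by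
    refine EvC.at_R (fun q t => 100 ≤ t ∧ 4 * q.nm < Real.exp (3 / 50 * t) ∧ (1 ≤ q.nm →
      Real.exp 2 * ((1 + q.ph.CT) * (q.ph.Cb * q.M₀)) ≤ 3 * q.nm * Real.exp (11 / 5 * t)))
      fun q => ?_
    filter_upwards [eventually_ge_atTop 100, ev_exp (c := 3 / 50) (by norm_num) (4 * q.nm),
      ev_exp (c := 11 / 5) (by norm_num) (Real.exp 2 * ((1 + q.ph.CT) * (q.ph.Cb * q.M₀)))]
      with t a1 a2 a3
    refine ⟨a1, a2, fun hn => ?_⟩
    have := Real.exp_pos (11 / 5 * t)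
    nlinarith
  refine ((EvC.good.and EvC.pos).and (h1.and evInf)).mono ?_
  rintro q ⟨⟨⟨⟨g, hL, -, -, -⟩, -⟩, p⟩, ⟨a1, a2, a3⟩, b⟩
  exact ⟨b, p.2.2.1, p.1.2.2.1, g.CT0, g.Cb0, hL, a1, a2, a3 p.1.2.2.1⟩

/-! ### The window -/

/-- `Φ' e^(-u)` grows from `uth` on. -/
theorem N_mono (hq : WinC q) (h : PkOk q d) :
    MonotoneOn (fun u => deriv d.Φ u * Real.exp (-u)) (Icc (d.uth q) (d.utb q)) := by
  have hd : ∀ u, HasDerivAt (fun u => deriv d.Φ u * Real.exp (-u))
      ((deriv (deriv d.Φ) u - deriv d.Φ u) * Real.exp (-u)) u := fun u => by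
    have h1 : HasDerivAt (deriv d.Φ) (deriv (deriv d.Φ) u) u :=
      (h.Φ's.differentiable (by simp) u).hasDerivAt
    have h2 : HasDerivAt (fun u : ℝ => Real.exp (-u)) (-Real.exp (-u)) u := by
      simpa using (hasDerivAt_neg u).exp
    refine (h1.mul h2).congr_deriv ?_
    ring
  refine monotoneOn_of_deriv_nonneg (convex_Icc _ _)
    (fun u _ => (hd u).continuousAt.continuousWithinAt)
    (fun u _ => (hd u).differentiableAt.differentiableWithinAt) fun u hu => ?_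
  rw [interior_Icc] at hu
  rw [(hd u).deriv]
  have hN := h.N_pos hq.M1 u
  refine mul_nonneg ?_ (Real.exp_pos _).le
  have h2 : 2 * deriv d.Φ u ≤ deriv (deriv d.Φ) u := by
    by_cases c1 : u ≤ d.uta q
    · exact (h.top.x1 u hu.1.le c1).ge
    · by_cases c2 : u ≤ d.uta q + 1
      · exact (h.top.x2 u (not_le.1 c1).le c2).1
      · rw [h.top.x3 u (not_le.1 c2).le hu.2.le]
        exact mul_le_mul_of_nonneg_right hq.L hN.le
  linarith

/-- **The top window.** -/
theorem top_win (hq : WinC q) (h : PkOk q d) {u : ℝ} (h1 : d.uta q - q.R / 50 ≤ u)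
    (h2 : u ≤ d.utb q) : 4 * q.nm * Real.exp u < deriv d.Φ u := by
  have hR := hq.R1
  have hl := l₀_le hq.inf h
  have hη := hq.inf.η1
  have e0 : d.uta q - q.R / 50 = d.uth q + (2 * q.R + 7 / 25 * q.R) := by
    unfold Pk.uta Pk.uth
    ring
  have hm := N_mono hq h ⟨by rw [e0]; linarith, h1.trans h2⟩ ⟨by
    refine le_trans ?_ h1
    rw [e0]
    linarith, h2⟩ h1
  dsimp only at hm
  have hy := h.top.y1 (d.uta q - q.R / 50) (by rw [e0]; linarith) (by linarith)
  rw [hy] at hm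
  have hNt := (hq.M1).trans (h.N_ge (d.uth q))
  have e1 : deriv d.Φ (d.uth q) * Real.exp (2 * (d.uta q - q.R / 50 - d.uth q)) *
      Real.exp (-(d.uta q - q.R / 50)) =
      deriv d.Φ (d.uth q) * Real.exp (2 / 25 * q.R - 2 * d.l₀ q) := by
    rw [mul_assoc, ← Real.exp_add]
    congr 2
    unfold Pk.uta Pk.uth
    ring
  rw [e1] at hm
  have h3 : Real.exp (3 / 50 * q.R) ≤ Real.exp (2 / 25 * q.R - 2 * d.l₀ q) := by
    refine Real.exp_le_exp.2 ?_
    nlinarith
  have h4 : 4 * q.nm < deriv d.Φ u * Real.exp (-u) := by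
    have := hq.E2
    have := mul_le_mul_of_nonneg_right hNt (Real.exp_pos (2 / 25 * q.R - 2 * d.l₀ q)).le
    linarith
  have h5 := mul_lt_mul_of_pos_right h4 (Real.exp_pos u)
  rwa [mul_assoc (deriv d.Φ u), ← Real.exp_add, neg_add_cancel, Real.exp_zero, mul_one] at h5

/-- The beginning of the second growth. -/
theorem thr_win (hq : WinC q) (h : PkOk q d) {u : ℝ} (h1 : d.uth q ≤ u)
    (h2 : u ≤ d.uth q + 1) : deriv d.Φ u ≤ 3 * q.nm * Real.exp u := by
  have hR := hq.R1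
  have hl := l₀_nonneg hq.inf h
  have hy := h.top.y1 u h1 (by
    refine h2.trans ?_
    unfold Pk.uta Pk.uth
    linarith)
  have hc := h.top.c1 (d.uth q) le_rfl
  have hn := h.ph.isΦ.n2 (d.uth q)
  have hn1 := h.ph.isΦ.n1 (d.uth q)
  rw [sub_self, Real.exp_zero, mul_one] at hc
  have hCT := hq.CT
  have h3 : deriv d.Φ (d.uth q) ≤ (1 + q.ph.CT) * (q.ph.Cb * q.M₀) :=
    hc.trans (mul_le_mul_of_nonneg_left hn (by linarith))
  have h4 : Real.exp (2 * (u - d.uth q)) ≤ Real.exp 2 := Real.exp_le_exp.2 (by linarith)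
  have h5 : Real.exp (11 / 5 * q.R) ≤ Real.exp u := by
    refine Real.exp_le_exp.2 (le_trans ?_ h1)
    unfold Pk.uth
    linarith
  rw [hy]
  have hnm := hq.nm
  calc deriv d.Φ (d.uth q) * Real.exp (2 * (u - d.uth q))
      ≤ (1 + q.ph.CT) * (q.ph.Cb * q.M₀) * Real.exp 2 :=
        mul_le_mul h3 h4 (Real.exp_pos _).le ((h.N_pos hq.M1 _).le.trans h3)
    _ = Real.exp 2 * ((1 + q.ph.CT) * (q.ph.Cb * q.M₀)) := by ring
    _ ≤ 3 * q.nm * Real.exp (11 / 5 * q.R) := hq.E3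
    _ ≤ 3 * q.nm * Real.exp u := mul_le_mul_of_nonneg_left h5 (by positivity)

/-- **The window of the finite leaves.** -/
theorem VS_win (hq : WinC q) (h : PkOk q d) {u : ℝ} (hV : d.VS q u < 1) (hu : u ≤ d.utb q) :
    u < d.uta q - q.R / 50 ∧ (u ≤ d.uth q ∨ deriv d.Φ u ≤ 3 * q.nm * Real.exp u) := by
  have hR := hq.R1
  have hN := h.N_pos hq.M1 u
  have hnm := hq.nm
  have h0 : 2 ≤ q.R := by linarith
  by_cases c : u < d.uth q + 1
  · refine ⟨?_, ?_⟩
    · unfold Pk.uth at c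
      unfold Pk.uta
      linarith
    · by_cases c' : u ≤ d.uth q
      · exact Or.inl c'
      · exact Or.inr (thr_win hq h (not_le.1 c').le c.le)
  · have c1 := not_lt.1 c
    unfold Pk.VS at hV
    rw [Real.smoothTransition.one_of_one_le (x := u - d.uth q) (by linarith), mul_one] at hV
    have h1 := st_lt hV
    have h2 : Real.log (deriv d.Φ u) < u + Real.log q.nm + 1 := by linarith
    have h3 : deriv d.Φ u < 3 * q.nm * Real.exp u := by
      have h4 := (Real.log_lt_iff_lt_exp hN).1 h2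
      rw [Real.exp_add, Real.exp_add, Real.exp_log (by linarith)] at h4
      have h5 := Real.exp_one_lt_d9
      have h6 : 0 < Real.exp u * q.nm := mul_pos (Real.exp_pos _) (by linarith)
      nlinarith
    refine ⟨?_, Or.inr h3.le⟩
    by_contra c2
    have h4 := top_win hq h (not_lt.1 c2) hu
    have h6 : 0 < q.nm * Real.exp u := mul_pos (by linarith) (Real.exp_pos _)
    linarith

/-- `|u - u₀| ≤ 1/4`. -/
theorem u_near (h : PkOk q d) (z : VV n) : |d.u q z - d.u0 z| ≤ 1 / 4 := by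
  have h1 : d.u q z - d.u0 z =
      2 * (d.χ (H31.EP.r2 (gi d.s₁) z) * d.μc q (d.l (H464.Cu.mid z))) := by
    unfold Pk.u H31.EP.uu Pk.u0 Pk.F
    ring
  have h2 := (d.μc_abs q (d.l (H464.Cu.mid z))).trans (h.ph.μb (d.l (H464.Cu.mid z)))
  obtain ⟨h3, h4⟩ := h.χb (H31.EP.r2 (gi d.s₁) z)
  rw [h1, abs_mul, abs_mul, abs_of_nonneg h3, abs_two]
  nlinarith [abs_nonneg (d.μc q (d.l (H464.Cu.mid z)))]

/-! ### The supports -/

/-- What is known on the support of a finite leaf, a closed condition. -/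
structure FinOk (q : Cst) (d : Pk n) (z : VV n) : Prop where
  near : NearOk q.κ₁ q.σ q.R (d.l₀ q) (H475.gg n q.σ) d.l z
  ua : d.u q z ≤ d.uta q - q.R / 50
  N3 : d.u q z ≤ d.uth q ∨ d.N q z ≤ 3 * q.nm * d.E q z

theorem fin_inf {k : Zo} (hk : Near k ∨ Off k) : sd k .inf = false := by
  unfold Near Off at hk
  rcases hk with (rfl | rfl | rfl | rfl | rfl) | (rfl | rfl | rfl | rfl | rfl | rfl | rfl) <;> rfl

theorem fin_alive (hq : WinC q) (h : PkOk q d) {k : Zo} (hk : Near k ∨ Off k)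
    (hz : d.ch q k z ≠ 0) : FinOk q d z := by
  have hL := lvG hq.inf h
  have hn := near_alive hL hq.inf.κ0 hq.inf.κ1 ((alive_inf hz).2 (fin_inf hk))
  have hA : Alive Fl (d.cv q) k z := hz
  have hV : d.VS q (d.u q z) < 1 := alive_nRS (P := d.cp q) (u := d.u q) Fl_pair hA hk
  have hu : d.u q z ≤ d.utb q := by
    have h1 := (abs_le.1 (u_near h z)).2
    have h2 := hn.up
    have hR := hq.R1
    unfold Pk.u0 at h1
    unfold Pk.utb
    linarith
  obtain ⟨h1, h2⟩ := VS_win hq h hV hu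
  exact ⟨hn, h1.le, h2⟩

theorem closed_fin (hq : WinC q) (h : PkOk q d) (hu : Continuous (d.u q)) :
    IsClosed {z | FinOk q d z} := by
  have hL := lvG hq.inf h
  have e : {z | FinOk q d z} = {z | NearOk q.κ₁ q.σ q.R (d.l₀ q) (H475.gg n q.σ) d.l z} ∩
      ({z | d.u q z ≤ d.uta q - q.R / 50} ∩
        ({z | d.u q z ≤ d.uth q} ∪ {z | d.N q z ≤ 3 * q.nm * d.E q z})) := by
    ext z
    exact ⟨fun h => ⟨h.near, h.ua, h.N3⟩, fun h => ⟨h.1, h.2.1, h.2.2⟩⟩
  rw [e]
  have h1 : Continuous fun z => d.N q z := h.Φ's.continuous.comp hu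
  have h2 : Continuous fun z => 3 * q.nm * d.E q z :=
    continuous_const.mul (Real.continuous_exp.comp hu)
  exact (closed_near hL).inter ((isClosed_le hu continuous_const).inter
    ((isClosed_le hu continuous_const).union (isClosed_le h1 h2)))

/-- **The supports of the finite leaves.** -/
theorem fin_supp (n : ℕ) : EvC fun q => ∀ d : Pk n, PkOk q d → ∀ k, Near k ∨ Off k →
    ∀ z ∈ tsupport (d.ch q k), FinOk q d z := by
  refine (evWin.and (EvC.litSm n)).mono fun q hq d h k hk z hz => ?_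
  exact closure_minimal (fun w hw => fin_alive hq.1 h hk (Function.mem_support.1 hw))
    (closed_fin hq.1 h (hq.2 d h).u.continuous) hz

/-- **The supports of the leaves off the diagonal.** -/
theorem off_supp (n : ℕ) : EvC fun q => ∀ d : Pk n, PkOk q d → ∀ k, Off k →
    ∀ z ∈ tsupport (d.ch q k), FinOk q d z ∧ q.c₀ ^ 2 ≤ d.r2 z := by
  refine ((fin_supp n).and (EvC.litSm n)).mono fun q hq d h k hk z hz => ?_
  refine ⟨hq.1 d h k (Or.inr hk) z hz, ?_⟩
  have hs := hq.2 d h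
  have hr : Continuous d.r2 := continuous_const.mul hs.rq.continuous
  refine closure_minimal (s := Function.support (d.ch q k)) (t := {z | q.c₀ ^ 2 ≤ d.r2 z})
    (fun w hw => ?_) (isClosed_le continuous_const hr) hz
  exact alive_off (u := d.u q) (X := d.X q) Fl_pair hs.cp (Function.mem_support.1 hw) hk

end Vale.Agent.P088.R2.H281.A
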